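import Crest.Agent.X262.Gwb.Mst
import Crest.Agent.X262.Kill52.Wl
import Crest.Agent.X262.Form88.Dom
import Crest.Agent.X277.Unf.Main
import Crest.Agent.X262.FG.Bert
import Crest.Agent.X262.FG.Up0
import Crest.Agent.X262.Rul.NoPG

/-!
# Row 262, road B (helper79): rational fourfolds and smooth hyperplane sections

* `exists_comp_pol` : a component of an snc boundary with the induced polarisation;
* `exists_hyp`      : a smooth hyperplane section and its components;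
* `dim_hyp`, `typ_hyp`, `typ0_rat`, `h42` : Hodge types on models of a rational field;
* `jk`              : Bertini and weak Lefschetz.
-/

set_option autoImplicit false
set_option linter.style.haveILetI false

open Set Filter Topology WithZero

noncomputable section

namespace Crest.Agent.X262.Jk79

open Crest.Agent.X277 Crest.Agent.X277.Lef Crest.Agent.X277.AN.G1 Crest.Agent.X277.BD
open Crest.Agent.X277.BD.Br (At oP)
open Crest.Agent.X277.Res.Log (On Bd)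
open Crest.Agent.X277.Res.Out (Un)
open Crest.Agent.X277.Strat.Fac (toG)
open Crest.Agent.X262.Coh Crest.Agent.X262.FG Crest.Agent.X262.Form88

section Comp

variable {F : Type} [Field F] [Algebra ℂ F] {P : PModel ℂ F} {n : ℕ}

theorem lpb_mdl {κ : Type} [Field κ] [Algebra ℂ κ] {q : Plc F κ} {P' : PModel ℂ κ}
    (hm : Strat.Fac.Mdl q P P') : LPb (X := sv P') (Y := sv P) hm.mor (oP P) (oP P') := by
  obtain ⟨u, hu⟩ := hm.pol
  refine ⟨u, fun x g hg => ?_⟩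
  obtain ⟨i, hi⟩ := exists_pat (hm.mor.map x)
  obtain ⟨i', hi'⟩ := exists_pat x
  have h1 := hu x _ (hm.ov x) i i' hi hi'
  have h2 := hg.ev_div_ne (Br.at_y hi)
  have h3 := (Res.Log.un_iff.2 h2).2.1
  have h4 : P.y i / u ∈ q.O := by_contra fun h => h1.1 (by rw [q.π_off h, zero_div])
  have h5 : q.π (g / u) = q.π (g / P.y i) * q.π (P.y i / u) := by
    rw [← q.π_mul ((hm.ov x).le h3) h4, div_mul_div_cancel₀ (P.y_ne i)]
  change At _ x (q.π (g / u))
  rw [h5]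
  exact ((Br.at_y hi').of_ev' (Res.Log.un_iff.1 h1)).mul_unit (((hm.ov x).ev_eq _ h3).symm ▸ h2)

theorem exists_comp_pol (B : Bd P n) (e : B.ι) : ∃ (G : SV) (v : Hom G (sv P)) (a : BD ℂ F),
    IsDv v a ∧ Val v (B.v e) ∧ LPb v (oP P) G.h ∧ ∀ x, At a (v.map x) (B.τ e (v.map x))⁻¹ := by
  classical
  obtain ⟨κ, _, _, p, hp⟩ := Strat.Fac.exists_plc_bd (B := B) e
  have h0 : ∀ f, f ∈ (toG p).O ↔ B.v e f ≤ 1 := fun f => hp ▸ Iff.rfl
  have h1 : ∀ x : Pts P, (lp x).O ≤ (toG p).O ↔ On (B.v e) x := fun x =>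
    ⟨fun h f hf => (h0 f).1 (h hf), fun h f hf => (h0 f).2 (h f hf)⟩
  have h2 : ∀ e', Strat.Fac.In B (toG p) e' ↔ e' = e := fun e' =>
    ⟨fun h => (B.v_injective ((B.isPD e).nrm.eq_of_le (B.isPD e').nrm fun f hf =>
      h f ((h0 f).2 hf))).symm, fun h f hf => h ▸ (h0 f).1 hf⟩
  have h3 : ∀ x : Pts P, On (B.v e) x → ∀ f ∈ (lp x).O,
      (toG p).π f = 0 ↔ f / B.τ e x ∈ (lp x).O := fun x hx f hf => by
    rw [Strat.Fac.toG_π, p.r_eq_zero (hp ▸ hx f hf), hp]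
    exact (Link.bd_eqn B hx).lt_iff hf
  have h4 : Strat.Fac.Pl B (toG p) (n - 1) := by
    refine ⟨p.exists_r, (B.ne e).imp fun x => (h1 x).2, ?_, fun x hx f hf => ?_,
      fun x hx f hf h => ⟨Pi.single e (f / B.τ e x), fun e' => ?_, fun e' he => ?_, ?_⟩⟩
    · obtain ⟨x, hx⟩ := B.ne e
      obtain ⟨t, σ, -⟩ := B.snc x
      have h5 := (σ ⟨e, hx⟩).pos
      have h6 : Nat.card {e' // Strat.Fac.In B (toG p) e'} = 1 :=
        Nat.card_eq_one_iff_unique.2 ⟨⟨fun a b => Subtype.ext (((h2 _).1 a.2).trans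
          ((h2 _).1 b.2).symm)⟩, ⟨⟨e, (h2 e).2 rfl⟩⟩⟩
      omega
    · obtain ⟨c, hc, h5, h6⟩ := ((B.isPD e).loc_lp ((h1 x).1 hx)).den f ((h0 f).1 hf)
      exact ⟨_, h6, c, hc, p.r_ne_zero (hp ▸ h5), mul_comm _ _⟩
    · rw [Pi.single_apply]
      split_ifs
      exacts [(h3 x ((h1 x).1 hx) f hf).1 h, zero_mem _]
    · exact Pi.single_eq_of_ne (mt (h2 e').2 he) _
    · simp [Pi.single_apply, B.τ_ne]
  obtain ⟨P', hm⟩ := h4.exists_mdl
  have h6 : ∀ x : Pts P, At (dvs B (Pi.single e 1)) x (B.τ e x)⁻¹ := fun x => by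
    have h5 := at_dvs B (Pi.single e 1) x
    rwa [Strat.Fac.mon_single (Pi.single_eq_same e 1) fun e' _ h => Pi.single_eq_of_ne h _] at h5
  refine ⟨sv P', hm.mor, _, ⟨⟨fun x x' h => (hm.ov x).eq_up (h ▸ hm.ov x'),
    fun x => (hm.ov x).surj⟩, fun y hy => ?_, fun x => ⟨_, B.τ_mem e _, h6 _,
      h3 _ ((h1 _).1 (hm.ov x).le)⟩⟩, h0, lpb_mdl hm, fun x => h6 _⟩
  have h5 := h6 y
  rwa [B.off e y fun h => hy (Form88.mem_range hm.mor ((h1 y).2 h)), inv_one] at h5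

/-- the empty boundary -/
theorem nonempty_bd (P : PModel ℂ F) : ∃ n, Nonempty (Bd P n) := by
  obtain ⟨b⟩ := exists_basis P
  exact ⟨_, ⟨
    { ι := Empty
      v := fun e => e.elim
      τ := fun e => e.elim
      ne := fun e => e.elim
      off := fun e => e.elim
      unif := fun e => e.elim
      val := fun e => e.elim
      snc := fun x => (exists_coords b x).imp fun _ h => ⟨fun e => e.1.elim, h, fun e => e.1.elim,
        fun e => e.1.elim⟩
      coh := fun e => e.elim }⟩⟩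

/-- **a smooth hyperplane section**; its components are disjoint -/
theorem exists_hyp (P : PModel ℂ F) : ∃ g, (g ≠ 0 ∧ g ∈ (oP P).Sec) ∧
    ∃ (ι : Type) (_ : Finite ι) (D : ι → SV) (j : ∀ i, Hom (D i) (sv P)) (a : ι → BD ℂ F),
      (∀ i, IsDv (j i) (a i) ∧ LPb (j i) (a i) (D i).h ∧ LPb (j i) (oP P) (D i).h) ∧
      ∀ y : Pts P, ¬ At (oP P) y g → ∃ i, y ∈ range (j i).map := by
  classical
  obtain ⟨n, ⟨B⟩⟩ := nonempty_bd P
  obtain ⟨u, -, h4⟩ := Bert.exists_not_mem (Bert.sth_bad B (a := oP P) (t := P.y) Br.y_mem_Sec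
    fun x => (exists_pat x).imp fun _ => Br.at_y) (one_ne_zero (α := MvPolynomial _ ℂ))
  set s := ∑ i, u i • P.y i with hs
  choose g hg using (Br.oP_mem : oP P ∈ Br.On P)
  have h1 : ∀ x, Bert.Tr B x (s / g x) := fun x => by_contra fun h => h4 ⟨x, _, hg x, h⟩
  have h0 : s ≠ 0 := fun h0 => (h1 (Classical.arbitrary _)).ne (by rw [h0, zero_div])
  have h2 : ∀ x, ∀ᶠ x' in 𝓝 x, Un (lp x').O (s / g x' / (s / g x)) := fun x =>
    (hg x).eventually.mono fun x' h3 => by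
      rw [div_div_div_comm, div_self h0, one_div_div]
      exact Res.Log.un_iff.2 (h3.ev_div_ne (hg x'))
  have h3 : ∀ (v : Valuation F ℤᵐ⁰) (x x' : Pts P), On v x → On v x' →
      v (s / g x) = v (s / g x') := fun v x x' hx hx' => by
    have h4 : ∀ c : ℂ, v (algebraMap ℂ F c) ≤ 1 := fun c => hx _ (algebraMap_mem _ c)
    have h6 := (hg x (rz v h4) fun f hf => hx f hf).trans
      (hg x' (rz v h4) fun f hf => hx' f hf).symm
    rw [map_div₀, map_div₀, (v_rz_eq_iff v h4).1 h6]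
  choose D j a h5 h6 h7 h8 using fun w => exists_comp_pol (Bert.ext h1 h2 h3) (.inr w)
  refine ⟨s, ⟨h0, sum_mem fun i _ => Submodule.smul_mem _ _ (Br.y_mem_Sec i)⟩, _,
    Bert.finite_cp h1 h2, D, j, a, fun w => ⟨h5 w, ?_, h7 w⟩, fun y hy => ?_⟩
  · obtain ⟨c, hc⟩ := h7 w
    refine ⟨c / s, fun x γ hγ => ?_⟩
    have h8 := h8 w x
    rw [show (Bert.ext h1 h2 h3).τ (.inr w) _ = s / g ((j w).map x) from if_pos ((h6 w).on x),
      inv_div] at h8
    rw [div_div_eq_mul_div]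
    refine hc x _ ((hg _).of_ev' ?_)
    have h9 := hγ.ev_div_ne h8
    rwa [div_div_eq_mul_div] at h9
  · obtain ⟨v, h8, -⟩ := (h1 y).exists_eqn fun h => hy ((hg y).of_ev' (Res.Log.un_iff.1 h))
    exact ⟨⟨v, h8.isPD, y, h8.on, h8.lt⟩, (h6 _).mem_range.2 h8.on⟩

end Comp

variable {C : Th} {K : Type} [Field K] [Algebra ℂ K] {N : ℕ}

theorem dim_hyp (Y : Top.Hyp N 0 K) : (sv Y.P).dim = N := by
  obtain ⟨h1, h2⟩ := Rul.hyp_free Y
  have h3 := h1.isTranscendenceBasis_iff_isAlgebraic.2 (by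
    rw [← IntermediateField.isAlgebraic_adjoin_iff_top, h2]
    infer_instance)
  have h4 := h3.cardinalMk_eq_trdeg
  haveI : Algebra.EssFiniteType ℂ K := Geo.eft Y.P
  rw [trdeg_eq_dim (k := ℂ) (F := K), Cardinal.mk_fin] at h4
  exact_mod_cast h4.symm

/-- projective space has only classes of type `(p, p)` -/
theorem typ_hyp (ax : C.Ax) (Y : Top.Hyp N 0 K) {p q : ℕ} (h : p ≠ q) :
    C.typ (sv Y.P) p q = ⊥ := by
  obtain ⟨k, hk | hk⟩ := Nat.even_or_odd' (p + q)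
  swap
  · exact ax.typ.odd _ ⟨k, hk⟩
  refine (Submodule.eq_bot_iff _).2 fun x hx => ?_
  have h1 := ax.typ.le (sv Y.P) hk hx
  rw [ax.pn (sv Y.P) (fun m q hq h => zero_dvd_iff.1 ((Y.ker m q hq).1 h)) k,
    Submodule.mem_span_singleton] at h1
  obtain ⟨c, rfl⟩ := h1
  exact Submodule.disjoint_def.1 ((ax.typ.int (sv Y.P)).submodule_iSupIndep.pairwiseDisjoint
    (show ((p, q) : ℕ × ℕ) ≠ (k, k) from fun e => h ((congrArg Prod.fst e).trans
      (congrArg Prod.snd e).symm))) _ hx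
    (Submodule.smul_mem _ _ (ax.typ.hc_pow ax.man ax.pd _ k))

/-- models of a rational field have no holomorphic forms -/
theorem typ0_rat (ax : C.Ax) (Y : Top.Hyp N 0 K) (P : PModel ℂ K) {p : ℕ}
    (hp : p ≠ 0) : C.typ (sv P) p 0 = ⊥ := by
  obtain ⟨W, h1, h2⟩ := Unf.exists_on_ge P {oP Y.P}
  have h3 : Chn.Ge W P := h1 Br.oP_mem
  have h4 : Chn.Ge W Y.P := h2 _ (Finset.mem_singleton_self _)
  have h5 := bim_id (Chn.mor_p h4)
  refine (Submodule.eq_bot_iff _).2 fun x hx => ax.pd.pb_inj ax.man (bim_id (Chn.mor_p h3)).dmn ?_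
  have h6 := ax.typ.pb (Chn.mor h3) x hx
  have h7 := ax.typ.push_typ ax.man ax.pd (Chn.mor h4) (p' := p) (q' := 0)
    (by rw [h5.dim_eq, add_comm]) (by rw [h5.dim_eq, add_comm]) h6
  rw [typ_hyp ax Y hp, Submodule.mem_bot] at h7
  rw [← bir0 ax (dom ax.man ax.pd) h5 (Or.inl h6), h7, map_zero, map_zero]

theorem h42 (ax : C.Ax) : Gwb.H42Stmt C := fun _ _ _ ⟨Y⟩ =>
  ⟨dim_hyp Y, fun P => Kill52.typ42 ax.man ax.pd ax.typ (dim_hyp Y)
    (typ0_rat ax Y P two_ne_zero)⟩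

theorem jk (ax : C.Ax) : Gwb.JkStmt C := fun _ _ _ P hd h => by
  obtain ⟨g, hg, ι, _, D, j, a, h1, h2⟩ := exists_hyp P
  refine ⟨g, hg, fun Z v hv x hx => ?_⟩
  obtain ⟨i, -, hi⟩ := exists_range v finite_univ j (Eventually.of_forall fun q =>
    (h2 _ (hv q)).imp fun i hi => ⟨trivial, hi⟩)
  obtain ⟨h3, h4, -⟩ := h1 i
  obtain ⟨w, hw⟩ := exists_lift h3.emb v fun q => hi (mem_range_self q)
  have h5 := h3.dim_eq
  have h6 := ax.typ.pb (j i) x hx
  rw [Kill52.wl31 ax h3 hd (Nat.succ_injective (h5.trans hd)) h one_pos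
    (by rw [one_nsmul]; exact ax.man.c1_pb _ _ h3.on _ h4), Submodule.mem_bot] at h6
  rw [← ax.man.pb_congr _ _ hw, ax.man.pb_comp, h6, map_zero]

end Crest.Agent.X262.Jk79
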